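import Vale.Agent.P181.H900.All
import Vale.Agent.P181.H35.Twenty
import Vale.Agent.P181.H280.Final

set_option autoImplicit false

open Vale.Agent.P181 Vale.Agent.P181.H280 Vale.Agent.P181.H421

universe u

namespace Vale.Agent.Results.P181.FoulkesSix

/-- **Foulkes' conjecture for `a = 6`, all `b`.** (1) For every `b ≥ 6` and every finite-dimensional
complex vector space `V` there is an injective linear map `Sym^6(Sym^b V) → Sym^b(Sym^6 V)` which
commutes with the maps induced by all linear maps `V → V`, and for all `n` and all `λ` the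
multiplicity of `S_λ(ℂ^n)` in `Sym^6(Sym^b ℂ^n)` is at most its multiplicity in
`Sym^b(Sym^6 ℂ^n)`. (2) For every `b ≥ 20` and every finite-dimensional complex vector space `V`
the canonical (Foulkes-Howe) map `Sym^6(Sym^b V) → Sym^b(Sym^6 V)` is injective. -/
theorem result :
    (∀ b : ℕ, 6 ≤ b → H530.FoulkesInjection.{u} 6 b ∧
      ∀ (n : ℕ) (lam : Fin n → ℕ), plethMult 6 b n lam ≤ plethMult b 6 n lam) ∧
    (∀ b : ℕ, 20 ≤ b → CanonicalInjective.{u} 6 b) := by
  have hB : ∀ b, 20 ≤ b → ∀ lam : Fin 6 → ℕ, Antitone lam → ∑ i, lam i = 6 * b →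
      H558.Fo b lam := fun b hb lam _ _ => H35.fo_twenty b hb lam
  have H : ∀ b, 7 ≤ b → b < 20 → ∀ lam : Fin 6 → ℕ, H558.Need b lam → H558.Fo b lam :=
    fun b h7 h20 _ h => H900.need_all b h7 h20 h
  refine ⟨fun b hb => ⟨H558.six_inj 20 hB H b hb, H558.six_all 20 hB H b hb⟩,
    fun b hb V _ _ _ => ⟨foulkesHowe 6 b V, foulkesHowe_tprod 6 b, foulkesHowe_equivariant 6 b,
      H35.foulkesHowe_six hb⟩⟩

end Vale.Agent.Results.P181.FoulkesSix
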